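import Vale.Agent.Lib.P113.Main

open Set
open Vale.Agent.Lib.P113

/-- The full positive answer to the question of P113: for every computable viscosity there are a
point, an open set of the torus and a force compiler such that the particle trajectory of the
(unique) global smooth solution with the compiled force enters the open set exactly when the machine
halts on the input. -/
theorem Vale.Agent.Results.P113.HaltingDetection.result (ν : ℝ) (hν : 0 < ν)
    (hc : IsComputableReal ν) :
    ∃ (a : R3) (O : Set R3), IsOpen O ∧ Periodic3 (fun x => x ∈ O) ∧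
      ∃ compiler : Machine × Word → Nat.Partrec.Code, Computable compiler ∧
      ∃ (T₀ : ℝ) (f : Machine → Word → ℝ → R3 → R3), 0 ≤ T₀ ∧
        (∀ M w, IsEffectiveForce (compiler (M, w)) (f M w)) ∧
        (∀ M w w' t x, T₀ ≤ t → f M w t x = f M w' t x) ∧
        (∃ P > 0, ∀ M w t x, T₀ ≤ t → f M w (t + P) x = f M w t x) ∧
        ∀ M w, ∃ u p, IsGlobalSmoothSolution ν (f M w) u p ∧
          (∀ T > 0, ∀ u' p', IsClassicalSolution ν (f M w) T u' p' →
            ∀ t ∈ Icc 0 T, u' t = u t ∧ p' t = p t) ∧
          (∃ X, IsTrajectory u a X) ∧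
          (∀ X X', IsTrajectory u a X → IsTrajectory u a X' → ∀ t ≥ 0, X t = X' t) ∧
          ∀ X, IsTrajectory u a X → ((∃ t ≥ 0, X t ∈ O) ↔ Halts M w) :=
  main_theorem ν hν hc
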